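import Mathlib

/-!
**The unitary elements `1 - x⋆ a⁻¹ x` attached to a pair with `a + a⋆ = x x⋆`, and the two
exact identities between them.**
-/

namespace Vale.Agent.P011.H436.OddN

variable {D : Type*} [DivisionRing D] [StarRing D]

/-- The unitary element attached to `x` and `a` with `a + a⋆ = x x⋆`. -/
def uu (x a : D) : D := 1 - star x * a⁻¹ * x

@[simp] theorem uu_zero (a : D) : uu 0 a = 1 := by simp [uu]

theorem star_uu (x a : D) : star (uu x a) = uu x (star a) := by
  simp only [uu, star_sub, star_one, star_mul, star_star, star_inv₀, mul_assoc]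

/-- The element is unitary. -/
theorem uu_mul_star {x a : D} (h : a + star a = x * star x) (ha : a ≠ 0) :
    uu x a * star (uu x a) = 1 := by
  have ha' : star a ≠ 0 := by simpa using ha
  have h1 : a⁻¹ * (x * star x) * (star a)⁻¹ = (star a)⁻¹ + a⁻¹ := by
    rw [← h, mul_add, add_mul, inv_mul_cancel₀ ha, one_mul, mul_assoc, mul_inv_cancel₀ ha',
      mul_one]
  rw [star_uu, uu, uu]
  have h2 : (1 - star x * a⁻¹ * x) * (1 - star x * (star a)⁻¹ * x) =
      1 - star x * a⁻¹ * x - star x * (star a)⁻¹ * x +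
        star x * (a⁻¹ * (x * star x) * (star a)⁻¹) * x := by noncomm_ring
  rw [h2, h1]
  noncomm_ring

theorem star_uu_mul {x a : D} (h : a + star a = x * star x) (ha : a ≠ 0) :
    star (uu x a) * uu x a = 1 := by
  have h2 : star a + star (star a) = x * star x := by rw [star_star, add_comm, h]
  have h3 := uu_mul_star h2 (by simpa using ha)
  rwa [star_uu, star_star, ← star_uu] at h3

/-- The pair `(y₁, y₂)` at `r` and its scalar `a`. -/
structure At (r y1 y2 a : D) : Prop where
  one : a + star a = y1 * star y1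
  two : a * r + star r * star a = y2 * star y2

section at_

variable {r y1 y2 a z u v g : D}

theorem At.syl (h : At r y1 y2 a) :
    a * r - star r * a = y2 * star y2 - star r * (y1 * star y1) := by
  rw [← h.two, ← h.one]; noncomm_ring

theorem At.two' (h : At r y1 y2 a) : a * r + star (a * r) = y2 * star y2 := by
  rw [star_mul]; exact h.two

/-- The Sylvester equation is enough when `r` and `r⋆` have disjoint spectra. -/
theorem at_of_syl (hr : ∀ x : D, x * r = star r * x → x = 0)
    (h : a * r - star r * a = y2 * star y2 - star r * (y1 * star y1)) : At r y1 y2 a := by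
  have h1 : a + star a = y1 * star y1 := by
    have h2 := congrArg star h
    simp only [star_sub, star_mul, star_star] at h2
    rw [← sub_eq_zero]
    refine hr _ ?_
    have h3 : a * r = star r * a + (y2 * star y2 - star r * (y1 * star y1)) := by
      rw [← h]; abel
    have h4 : star a * r = star r * star a - (y2 * star y2 - (y1 * star y1) * r) := by
      rw [← h2]; abel
    calc (a + star a - y1 * star y1) * r = a * r + star a * r - y1 * star y1 * r := by
          noncomm_ring
      _ = star r * (a + star a - y1 * star y1) := by rw [h3, h4]; noncomm_ring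
  refine ⟨h1, ?_⟩
  have h5 : star a = y1 * star y1 - a := by rw [← h1]; abel
  rw [h5]
  have h3 : a * r = star r * a + (y2 * star y2 - star r * (y1 * star y1)) := by
    rw [← h]; abel
  rw [h3]; noncomm_ring

theorem At.unique (hr : ∀ x : D, x * r = star r * x → x = 0) {a' : D}
    (h : At r y1 y2 a) (h' : At r y1 y2 a') : a = a' := by
  rw [← sub_eq_zero]
  refine hr _ ?_
  have h1 := h.syl
  rw [← h'.syl] at h1
  have h2 : (a - a') * r - star r * (a - a') =
      (a * r - star r * a) - (a' * r - star r * a') := by noncomm_ring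
  rw [h1, sub_self, sub_eq_zero] at h2
  exact h2

theorem mul_star_eq_zero_iff' (hp : ∀ x : D, x * star x = 0 → x = 0) {x : D} :
    x * star x = 0 ↔ x = 0 := ⟨hp x, fun h => by simp [h]⟩

theorem At.ne_zero (h : At r y1 y2 a) (hy : y1 ≠ 0 ∨ y2 ≠ 0) : a ≠ 0 := by
  rintro rfl
  rcases hy with hy | hy
  · have := h.one
    simp only [star_zero, add_zero] at this
    rcases mul_eq_zero.mp this.symm with h | h
    · exact hy h
    · exact hy (by simpa using h)
  · have := h.two
    simp only [star_zero, zero_mul, mul_zero, add_zero] at this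
    rcases mul_eq_zero.mp this.symm with h | h
    · exact hy h
    · exact hy (by simpa using h)

theorem At.zero : At r 0 0 (0 : D) := ⟨by simp, by simp⟩

/-- Unitary factors on the right. -/
theorem At.mul_right (h : At r y1 y2 a) (hu : u * star u = 1) (hv : v * star v = 1) :
    At r (y1 * u) (y2 * v) a := by
  refine ⟨?_, ?_⟩
  · rw [star_mul, mul_assoc, ← mul_assoc u, hu, one_mul, h.one]
  · rw [star_mul, mul_assoc, ← mul_assoc v, hv, one_mul, h.two]

theorem uu_mul_right (hu : star u * u = 1) (x a : D) :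
    uu (x * u) a = star u * uu x a * u := by
  simp only [uu, star_mul]
  have : star u * (1 - star x * a⁻¹ * x) * u = star u * u - star u * star x * a⁻¹ * (x * u) := by
    noncomm_ring
  rw [this, hu]

/-- Left multiplication. -/
theorem At.mul_left (h : At (star g * r * (star g)⁻¹) y1 y2 a) (hg : g ≠ 0) :
    At r (g * y1) (g * y2) (g * a * star g) := by
  have hg' : star g ≠ 0 := by simpa using hg
  have e1 : g * a * star g * r = g * (a * (star g * r * (star g)⁻¹)) * star g := by
    have : g * (a * (star g * r * (star g)⁻¹)) * star g =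
        g * a * star g * r * ((star g)⁻¹ * star g) := by noncomm_ring
    rw [this, inv_mul_cancel₀ hg', mul_one]
  refine ⟨?_, ?_⟩
  · have : g * a * star g + star (g * a * star g) = g * (a + star a) * star g := by
      simp only [star_mul, star_star]; noncomm_ring
    rw [this, h.one]; simp only [star_mul]; noncomm_ring
  · have h2 := h.two'
    have e2 : star r * star (g * a * star g) = star (g * a * star g * r) := by
      simp only [star_mul, star_star]
    rw [e2, e1]
    have : g * (a * (star g * r * (star g)⁻¹)) * star g +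
        star (g * (a * (star g * r * (star g)⁻¹)) * star g) =
        g * (a * (star g * r * (star g)⁻¹) + star (a * (star g * r * (star g)⁻¹))) * star g := by
      simp only [star_mul, star_star]; noncomm_ring
    rw [this, h2]; simp only [star_mul]; noncomm_ring

theorem uu_mul_left (hg : g ≠ 0) (x a : D) : uu (g * x) (g * a * star g) = uu x a := by
  have hg' : star g ≠ 0 := by simpa using hg
  have h1 : star g * (g * a * star g)⁻¹ * g = a⁻¹ := by
    rw [mul_inv_rev, mul_inv_rev, ← mul_assoc, mul_inv_cancel₀ hg', one_mul, mul_assoc,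
      inv_mul_cancel₀ hg, mul_one]
  simp only [uu, star_mul]
  have : star x * star g * (g * a * star g)⁻¹ * (g * x) =
      star x * (star g * (g * a * star g)⁻¹ * g) * x := by noncomm_ring
  rw [this, h1]

/-- The scalar of the moved pair. -/
def mz (r y1 y2 a : D) : D := a + star r * star a + y2 * star y1

theorem At.move (h : At r y1 y2 a) : At r (y1 + y2) (star r * y1 + y2) (mz r y1 y2 a) := by
  have h1 := h.one
  have h2 := h.two
  refine ⟨?_, ?_⟩
  · have : mz r y1 y2 a + star (mz r y1 y2 a) =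
        (a + star a) + (a * r + star r * star a) + y2 * star y1 + y1 * star y2 := by
      simp only [mz, star_add, star_mul, star_star]; abel
    rw [this, h1, h2]; simp only [star_add]; noncomm_ring
  · have : mz r y1 y2 a * r + star r * star (mz r y1 y2 a) =
        star r * (a + star a) * r + (a * r + star r * star a) + y2 * star y1 * r +
          star r * y1 * star y2 := by
      simp only [mz, star_add, star_mul, star_star]; noncomm_ring
    rw [this, h1, h2]; simp only [star_add, star_mul, star_star]; noncomm_ring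

/-- **The first identity.** -/
theorem uu_move (h : At r y1 y2 a) (hr : r ≠ 0) (ha : a ≠ 0) (hz : mz r y1 y2 a ≠ 0) :
    uu (star r * y1 + y2) (mz r y1 y2 a * r) * uu y1 a =
      uu y2 (a * r) * uu (y1 + y2) (mz r y1 y2 a) := by
  set z := mz r y1 y2 a with hzd
  have hr' : star r ≠ 0 := by simpa using hr
  have h1 := h.one
  have h2 := h.two
  -- left
  have l1 : (star r * y1 + y2) * star y1 = z - a + star r * a := by
    have : (star r * y1 + y2) * star y1 = star r * (y1 * star y1) + y2 * star y1 := by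
      noncomm_ring
    rw [this, ← h1, hzd, mz]; noncomm_ring
  have l2 : y2 * star (y1 + y2) = z - a + a * r := by
    have : y2 * star (y1 + y2) = y2 * star y1 + y2 * star y2 := by
      simp only [star_add]; noncomm_ring
    rw [this, ← h2, hzd, mz]; noncomm_ring
  have e1 : (star r * y1 + y2) * uu y1 a = (y1 + y2) - z * a⁻¹ * y1 := by
    have : (star r * y1 + y2) * uu y1 a =
        (star r * y1 + y2) - ((star r * y1 + y2) * star y1) * a⁻¹ * y1 := by
      simp only [uu]; noncomm_ring
    rw [this, l1]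
    have : (z - a + star r * a) * a⁻¹ * y1 =
        z * a⁻¹ * y1 - (a * a⁻¹) * y1 + star r * (a * a⁻¹) * y1 := by noncomm_ring
    rw [this, mul_inv_cancel₀ ha]; noncomm_ring
  have e2 : star (star r * y1 + y2) * (z * r)⁻¹ =
      star y1 * z⁻¹ + star y2 * r⁻¹ * z⁻¹ := by
    rw [mul_inv_rev]
    have : star (star r * y1 + y2) * (r⁻¹ * z⁻¹) =
        star y1 * (r * r⁻¹) * z⁻¹ + star y2 * r⁻¹ * z⁻¹ := by
      simp only [star_add, star_mul, star_star]; noncomm_ring
    rw [this, mul_inv_cancel₀ hr]; noncomm_ring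
  have L : uu (star r * y1 + y2) (z * r) * uu y1 a = 1 - star y1 * z⁻¹ * (y1 + y2)
      - star y2 * r⁻¹ * z⁻¹ * (y1 + y2) + star y2 * r⁻¹ * a⁻¹ * y1 := by
    have : uu (star r * y1 + y2) (z * r) * uu y1 a =
        uu y1 a - (star (star r * y1 + y2) * (z * r)⁻¹) * ((star r * y1 + y2) * uu y1 a) := by
      simp only [uu]; noncomm_ring
    rw [this, e1, e2]
    have : (star y1 * z⁻¹ + star y2 * r⁻¹ * z⁻¹) * (y1 + y2 - z * a⁻¹ * y1) =
        star y1 * z⁻¹ * (y1 + y2) + star y2 * r⁻¹ * z⁻¹ * (y1 + y2)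
          - star y1 * (z⁻¹ * z) * a⁻¹ * y1 - star y2 * r⁻¹ * (z⁻¹ * z) * a⁻¹ * y1 := by
      noncomm_ring
    rw [this, inv_mul_cancel₀ hz]
    simp only [uu]; noncomm_ring
  have f1 : uu y2 (a * r) * star (y1 + y2) =
      star (y1 + y2) - star y2 * r⁻¹ * a⁻¹ * z + star y2 * r⁻¹ - star y2 := by
    have : uu y2 (a * r) * star (y1 + y2) =
        star (y1 + y2) - star y2 * (a * r)⁻¹ * (y2 * star (y1 + y2)) := by
      simp only [uu]; noncomm_ring
    rw [this, l2, mul_inv_rev]
    have : star y2 * (r⁻¹ * a⁻¹) * (z - a + a * r) =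
        star y2 * r⁻¹ * a⁻¹ * z - star y2 * r⁻¹ * (a⁻¹ * a)
          + star y2 * (r⁻¹ * (a⁻¹ * a) * r) := by noncomm_ring
    rw [this, inv_mul_cancel₀ ha, mul_one, mul_one, inv_mul_cancel₀ hr]; noncomm_ring
  have R : uu y2 (a * r) * uu (y1 + y2) z = 1 - star y2 * (r⁻¹ * a⁻¹) * y2
      - (star (y1 + y2) - star y2 * r⁻¹ * a⁻¹ * z + star y2 * r⁻¹ - star y2) * z⁻¹
        * (y1 + y2) := by
    have : uu y2 (a * r) * uu (y1 + y2) z =
        uu y2 (a * r) - (uu y2 (a * r) * star (y1 + y2)) * z⁻¹ * (y1 + y2) := by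
      simp only [uu]; noncomm_ring
    rw [this, f1]
    simp only [uu, mul_inv_rev]
  rw [L, R]
  have : (star (y1 + y2) - star y2 * r⁻¹ * a⁻¹ * z + star y2 * r⁻¹ - star y2) * z⁻¹
        * (y1 + y2) = star y1 * z⁻¹ * (y1 + y2) - star y2 * r⁻¹ * a⁻¹ * (z * z⁻¹) * (y1 + y2)
          + star y2 * r⁻¹ * z⁻¹ * (y1 + y2) := by
    simp only [star_add]; noncomm_ring
  rw [this, mul_inv_cancel₀ hz]
  noncomm_ring

end at_

section exchange

variable {v w p t q s : D}

/-- The Schur complement. -/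
theorem schur (hp : p + star p = v * star v) (ht : t + star t = w * star w)
    (hq : q + star s = v * star w) (p0 : p ≠ 0) :
    (t - s * p⁻¹ * q) + star (t - s * p⁻¹ * q) =
      (w - s * p⁻¹ * v) * star (w - s * p⁻¹ * v) := by
  have p0' : star p ≠ 0 := by simpa using p0
  have hq' : s + star q = w * star v := by
    have := congrArg star hq
    simpa only [star_add, star_mul, star_star, add_comm] using this
  have : (w - s * p⁻¹ * v) * star (w - s * p⁻¹ * v) =
      w * star w - s * p⁻¹ * (v * star w) - (w * star v) * (star p)⁻¹ * star s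
        + s * p⁻¹ * (v * star v) * (star p)⁻¹ * star s := by
    simp only [star_sub, star_mul, star_inv₀]; noncomm_ring
  rw [this, ← hp, ← ht, ← hq, ← hq']
  have h1 : s * p⁻¹ * (p + star p) * (star p)⁻¹ * star s =
      s * (p⁻¹ * p) * (star p)⁻¹ * star s + s * p⁻¹ * (star p * (star p)⁻¹) * star s := by
    noncomm_ring
  rw [h1, inv_mul_cancel₀ p0, mul_inv_cancel₀ p0']
  simp only [star_sub, star_mul, star_inv₀]; noncomm_ring

/-- One factorization of the unitary element of a pair of vectors. -/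
theorem uu_pair (hp : p + star p = v * star v) (hq : q + star s = v * star w) (p0 : p ≠ 0) :
    uu v p * uu (w - s * p⁻¹ * v) (t - s * p⁻¹ * q) =
      1 - star v * p⁻¹ * v -
        (star w - star v * p⁻¹ * q) * (t - s * p⁻¹ * q)⁻¹ * (w - s * p⁻¹ * v) := by
  have p0' : star p ≠ 0 := by simpa using p0
  have key : uu v p * star (w - s * p⁻¹ * v) = star w - star v * p⁻¹ * q := by
    have : uu v p * star (w - s * p⁻¹ * v) =
        star w - star v * (star p)⁻¹ * star s - star v * p⁻¹ * (v * star w)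
          + star v * p⁻¹ * (v * star v) * (star p)⁻¹ * star s := by
      simp only [uu, star_sub, star_mul, star_inv₀]; noncomm_ring
    rw [this, ← hp, ← hq]
    have h1 : star v * p⁻¹ * (p + star p) * (star p)⁻¹ * star s =
      star v * (p⁻¹ * p) * (star p)⁻¹ * star s +
        star v * p⁻¹ * (star p * (star p)⁻¹) * star s := by noncomm_ring
    rw [h1, inv_mul_cancel₀ p0, mul_inv_cancel₀ p0']
    noncomm_ring
  have : uu v p * uu (w - s * p⁻¹ * v) (t - s * p⁻¹ * q) =
      uu v p - (uu v p * star (w - s * p⁻¹ * v)) * (t - s * p⁻¹ * q)⁻¹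
        * (w - s * p⁻¹ * v) := by
    simp only [uu]; noncomm_ring
  rw [this, key]
  simp only [uu]

omit [StarRing D] in
/-- The inverse of a Schur complement. -/
theorem schur_inv (p0 : p ≠ 0) (t0 : t ≠ 0) (hS : t - s * p⁻¹ * q ≠ 0) :
    p - q * t⁻¹ * s ≠ 0 ∧ (p - q * t⁻¹ * s)⁻¹ =
      p⁻¹ + p⁻¹ * q * (t - s * p⁻¹ * q)⁻¹ * s * p⁻¹ := by
  set S := t - s * p⁻¹ * q with hSd
  have hs : s * p⁻¹ * q = t - S := by rw [hSd]; abel
  have h1 : (p - q * t⁻¹ * s) * (p⁻¹ + p⁻¹ * q * S⁻¹ * s * p⁻¹) = 1 := by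
    have : (p - q * t⁻¹ * s) * (p⁻¹ + p⁻¹ * q * S⁻¹ * s * p⁻¹) =
        p * p⁻¹ + (p * p⁻¹) * q * S⁻¹ * s * p⁻¹ - q * t⁻¹ * s * p⁻¹
          - q * t⁻¹ * (s * p⁻¹ * q) * S⁻¹ * s * p⁻¹ := by noncomm_ring
    rw [this, hs, mul_inv_cancel₀ p0]
    have : q * t⁻¹ * (t - S) * S⁻¹ * s * p⁻¹ =
        q * (t⁻¹ * t) * S⁻¹ * s * p⁻¹ - q * t⁻¹ * (S * S⁻¹) * s * p⁻¹ := by noncomm_ring
    rw [this, inv_mul_cancel₀ t0, mul_inv_cancel₀ hS]
    noncomm_ring
  have h2 : p - q * t⁻¹ * s ≠ 0 := by
    intro h; rw [h, zero_mul] at h1; exact zero_ne_one h1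
  exact ⟨h2, inv_eq_of_mul_eq_one_right h1⟩

/-- **The second identity (exchange).** -/
theorem uu_exchange (hp : p + star p = v * star v) (ht : t + star t = w * star w)
    (hq : q + star s = v * star w) (p0 : p ≠ 0) (t0 : t ≠ 0) (hS : t - s * p⁻¹ * q ≠ 0) :
    uu v p * uu (w - s * p⁻¹ * v) (t - s * p⁻¹ * q) =
      uu w t * uu (v - q * t⁻¹ * w) (p - q * t⁻¹ * s) := by
  have hq' : s + star q = w * star v := by
    have := congrArg star hq
    simpa only [star_add, star_mul, star_star, add_comm] using this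
  obtain ⟨hS', hinv⟩ := schur_inv p0 t0 hS
  obtain ⟨-, hinv'⟩ := schur_inv t0 p0 hS'
  rw [uu_pair hp hq p0, uu_pair ht hq' t0]
  set S := t - s * p⁻¹ * q with hSd
  set P := p - q * t⁻¹ * s with hPd
  have hs : s * p⁻¹ * q = t - S := by rw [hSd]; abel
  have a1 : P⁻¹ * q * t⁻¹ = p⁻¹ * q * S⁻¹ := by
    rw [hinv]
    have : (p⁻¹ + p⁻¹ * q * S⁻¹ * s * p⁻¹) * q * t⁻¹ =
        p⁻¹ * q * t⁻¹ + p⁻¹ * q * S⁻¹ * (s * p⁻¹ * q) * t⁻¹ := by noncomm_ring
    rw [this, hs]
    have : p⁻¹ * q * S⁻¹ * (t - S) * t⁻¹ =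
        p⁻¹ * q * S⁻¹ * (t * t⁻¹) - p⁻¹ * q * (S⁻¹ * S) * t⁻¹ := by noncomm_ring
    rw [this, mul_inv_cancel₀ t0, inv_mul_cancel₀ hS]
    noncomm_ring
  have a2 : t⁻¹ * s * P⁻¹ = S⁻¹ * s * p⁻¹ := by
    rw [hinv]
    have : t⁻¹ * s * (p⁻¹ + p⁻¹ * q * S⁻¹ * s * p⁻¹) =
        t⁻¹ * s * p⁻¹ + t⁻¹ * (s * p⁻¹ * q) * S⁻¹ * s * p⁻¹ := by noncomm_ring
    rw [this, hs]
    have : t⁻¹ * (t - S) * S⁻¹ * s * p⁻¹ =
        (t⁻¹ * t) * S⁻¹ * s * p⁻¹ - t⁻¹ * (S * S⁻¹) * s * p⁻¹ := by noncomm_ring
    rw [this, inv_mul_cancel₀ t0, mul_inv_cancel₀ hS]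
    noncomm_ring
  have a3 : t⁻¹ + t⁻¹ * s * P⁻¹ * q * t⁻¹ = S⁻¹ := hinv'.symm
  -- expand both sides
  have L : 1 - star v * p⁻¹ * v - (star w - star v * p⁻¹ * q) * S⁻¹ * (w - s * p⁻¹ * v) =
      1 - star v * (p⁻¹ + p⁻¹ * q * S⁻¹ * s * p⁻¹) * v - star w * S⁻¹ * w
        + star w * (S⁻¹ * s * p⁻¹) * v + star v * (p⁻¹ * q * S⁻¹) * w := by noncomm_ring
  have R : 1 - star w * t⁻¹ * w - (star v - star w * t⁻¹ * s) * P⁻¹ * (v - q * t⁻¹ * w) =
      1 - star w * (t⁻¹ + t⁻¹ * s * P⁻¹ * q * t⁻¹) * w - star v * P⁻¹ * v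
        + star v * (P⁻¹ * q * t⁻¹) * w + star w * (t⁻¹ * s * P⁻¹) * v := by noncomm_ring
  rw [L, R, a3, a1, a2, ← hinv]
  abel

end exchange

end Vale.Agent.P011.H436.OddN
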