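import Vale.Agent.P011.H436.OddN.Formal

/-!
**The two-point functional of a character of a group of unitary elements and its moves.**
-/

namespace Vale.Agent.P011.H436.OddN

variable {D : Type*} [DivisionRing D] [StarRing D] {E : Type*} [CommGroup E]

/-- `c` is a homomorphism on the group `W` of unitary elements. -/
structure Chr (W : Set D) (c : D → E) : Prop where
  unit : ∀ u ∈ W, u * star u = 1
  unit' : ∀ u ∈ W, star u * u = 1
  one : (1 : D) ∈ W
  mul : ∀ u ∈ W, ∀ v ∈ W, u * v ∈ W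
  st : ∀ u ∈ W, star u ∈ W
  map : ∀ u ∈ W, ∀ v ∈ W, c (u * v) = c u * c v

namespace Chr

variable {W : Set D} {c : D → E} (hc : Chr W c)

include hc

theorem map_one : c 1 = 1 := by
  have := hc.map 1 hc.one 1 hc.one
  rw [mul_one] at this
  exact mul_eq_left.mp this.symm

theorem map_star {u : D} (hu : u ∈ W) : c (star u) = (c u)⁻¹ := by
  rw [eq_inv_iff_mul_eq_one, ← hc.map _ (hc.st u hu) _ hu, hc.unit' u hu, hc.map_one]

/-- Conjugation by an element of the group. -/
theorem conj_mem {u v : D} (hu : u ∈ W) (hv : v ∈ W) : star u * v * u ∈ W :=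
  hc.mul _ (hc.mul _ (hc.st u hu) _ hv) _ hu

theorem map_conj {u v : D} (hu : u ∈ W) (hv : v ∈ W) : c (star u * v * u) = c v := by
  rw [hc.map _ (hc.mul _ (hc.st u hu) _ hv) _ hu, hc.map _ (hc.st u hu) _ hv,
    hc.map_star hu, mul_comm, ← mul_assoc, mul_inv_cancel, one_mul]

theorem mem_of_mul_right {u v : D} (hv : v ∈ W) (h : u * v ∈ W) : u ∈ W := by
  have := hc.mul _ h _ (hc.st v hv)
  rwa [mul_assoc, hc.unit v hv, mul_one] at this

theorem mem_of_mul_left {u v : D} (hu : u ∈ W) (h : u * v ∈ W) : v ∈ W := by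
  have := hc.mul _ (hc.st u hu) _ h
  rwa [← mul_assoc, hc.unit' u hu, one_mul] at this

end Chr

/-- The two-point functional. -/
def FF (c : D → E) (r y1 y2 a : D) : E := c (uu y2 (a * r)) / c (uu y1 a)

/-- The pair is in the domain: both unitary elements are in the group. -/
structure Dm (W : Set D) (r y1 y2 a : D) : Prop where
  at_ : At r y1 y2 a
  m1 : uu y1 a ∈ W
  m2 : uu y2 (a * r) ∈ W

section moves

variable {W : Set D} {c : D → E} {r y1 y2 a u v g : D}

/-- Right factors in the group. -/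
theorem Dm.mul_right (hc : Chr W c) (h : Dm W r y1 y2 a) (hu : u ∈ W) (hv : v ∈ W) :
    Dm W r (y1 * u) (y2 * v) a ∧ FF c r (y1 * u) (y2 * v) a = FF c r y1 y2 a := by
  refine ⟨⟨h.at_.mul_right (hc.unit u hu) (hc.unit v hv), ?_, ?_⟩, ?_⟩
  · rw [uu_mul_right (hc.unit' u hu)]; exact hc.conj_mem hu h.m1
  · rw [uu_mul_right (hc.unit' v hv)]; exact hc.conj_mem hv h.m2
  · rw [FF, FF, uu_mul_right (hc.unit' u hu), uu_mul_right (hc.unit' v hv),
      hc.map_conj hu h.m1, hc.map_conj hv h.m2]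

/-- Scaling by a central unitary element on the left. -/
theorem uu_central {m x b : D} (hm : m * star m = 1) (hcm : ∀ x : D, m * x = x * m) :
    uu (m * x) b = uu x b := by
  have h1 : star m * m = 1 := by rw [← hcm (star m), hm]
  rw [hcm x, uu_mul_right h1]
  have h2 : star m * uu x b * m = (star m * m) * uu x b := by
    rw [mul_assoc, ← hcm, ← mul_assoc]
  rw [h2, h1, one_mul]

theorem At.central (h : At r y1 y2 a) {m m' : D} (hm : m * star m = 1) (hm' : m' * star m' = 1)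
    (hcm : ∀ x : D, m * x = x * m) (hcm' : ∀ x : D, m' * x = x * m') :
    At r (m * y1) (m' * y2) a := by
  rw [hcm, hcm']
  exact h.mul_right hm hm'

/-- The elementary move. -/
theorem Dm.move (hc : Chr W c) (h : Dm W r y1 y2 a) (hr : r ≠ 0) (ha : a ≠ 0)
    (hz : mz r y1 y2 a ≠ 0) (hW : uu (y1 + y2) (mz r y1 y2 a) ∈ W) :
    Dm W r (y1 + y2) (star r * y1 + y2) (mz r y1 y2 a) ∧
      FF c r (y1 + y2) (star r * y1 + y2) (mz r y1 y2 a) = FF c r y1 y2 a := by
  have e := uu_move h.at_ hr ha hz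
  have h2 : uu (star r * y1 + y2) (mz r y1 y2 a * r) ∈ W :=
    hc.mem_of_mul_right h.m1 (e ▸ hc.mul _ h.m2 _ hW)
  refine ⟨⟨h.at_.move, hW, h2⟩, ?_⟩
  have e2 := congrArg c e
  rw [hc.map _ h2 _ h.m1, hc.map _ h.m2 _ hW] at e2
  rw [FF, FF, div_eq_div_iff_mul_eq_mul, e2]

/-- The same move, the membership of the second element given. -/
theorem Dm.move' (hc : Chr W c) (h : Dm W r y1 y2 a) (hr : r ≠ 0) (ha : a ≠ 0)
    (hz : mz r y1 y2 a ≠ 0)
    (hW : uu (star r * y1 + y2) (mz r y1 y2 a * r) ∈ W) :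
    Dm W r (y1 + y2) (star r * y1 + y2) (mz r y1 y2 a) ∧
      FF c r (y1 + y2) (star r * y1 + y2) (mz r y1 y2 a) = FF c r y1 y2 a := by
  refine h.move hc hr ha hz ?_
  have e := uu_move h.at_ hr ha hz
  exact hc.mem_of_mul_left h.m2 (e ▸ hc.mul _ hW _ h.m1)

end moves

section central

variable {K : Type*} [Field K] [StarRing K] [Algebra K D] [StarModule K D] {W : Set D} {c : D → E}
  {r y1 y2 a : D}

/-- Rescaling the second vector by a central element. -/
theorem At.scale (h : At r y1 y2 a) (m : K) : At ((m * star m) • r) y1 (m • y2) a := by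
  refine ⟨h.one, ?_⟩
  rw [star_smul, star_smul, star_mul, star_star, mul_smul_comm, smul_mul_assoc, smul_mul_assoc,
    mul_smul_comm, smul_smul, ← smul_add, h.two]

theorem At.unscale {m : K} (hm : m ≠ 0) (h : At ((m * star m) • r) y1 (m • y2) a) :
    At r y1 y2 a := by
  have h1 := h.scale m⁻¹
  have hm' : star m ≠ 0 := by simpa using hm
  rw [smul_smul, smul_smul, inv_mul_cancel₀ hm, one_smul, star_inv₀] at h1
  have : m⁻¹ * (star m)⁻¹ * (m * star m) = 1 := by field_simp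
  rwa [this, one_smul] at h1

theorem uu_scale {m : K} (hm : m ≠ 0) (x b : D) : uu (m • x) ((m * star m) • b) = uu x b := by
  have hm' : star m ≠ 0 := by simpa using hm
  have hi : ((m * star m) • b)⁻¹ = (m * star m)⁻¹ • b⁻¹ := by
    by_cases hb : b = 0
    · simp [hb]
    · refine inv_eq_of_mul_eq_one_right ?_
      rw [smul_mul_assoc, mul_smul_comm, smul_smul, mul_inv_cancel₀ (mul_ne_zero hm hm'),
        mul_inv_cancel₀ hb, one_smul]
  simp only [uu, star_smul, hi, smul_mul_assoc, mul_smul_comm, smul_smul]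
  have : m * ((m * star m)⁻¹ * star m) = 1 := by
    field_simp
  rw [this, one_smul]

/-- The scalar of the pair moved by `[[1, m], [m̄ r⋆, 1]]`. -/
def mn (m : K) (r y1 y2 a : D) : D :=
  a + (m * star m) • (star r * star a) + m • (y2 * star y1)

theorem mn_eq (m : K) : mn m r y1 y2 a = mz ((m * star m) • r) y1 (m • y2) a := by
  simp only [mn, mz, star_smul, star_mul, star_star, smul_mul_assoc]

/-- **The move `M_m`.** -/
theorem Dm.moveM (hc : Chr W c) {m : K} (hm : m ≠ 0) (h : Dm W r y1 y2 a) (hr : r ≠ 0)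
    (ha : a ≠ 0) (hz : mn m r y1 y2 a ≠ 0) (hW : uu (y1 + m • y2) (mn m r y1 y2 a) ∈ W) :
    Dm W r (y1 + m • y2) (star m • (star r * y1) + y2) (mn m r y1 y2 a) ∧
      FF c r (y1 + m • y2) (star m • (star r * y1) + y2) (mn m r y1 y2 a) = FF c r y1 y2 a := by
  have hm' : star m ≠ 0 := by simpa using hm
  have hN : m * star m ≠ 0 := mul_ne_zero hm hm'
  have hd : Dm W ((m * star m) • r) y1 (m • y2) a := by
    refine ⟨h.at_.scale m, h.m1, ?_⟩
    rw [mul_smul_comm, uu_scale hm]; exact h.m2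
  have h2 := hd.move hc (smul_ne_zero hN hr) ha (by rwa [← mn_eq]) (by rwa [← mn_eq])
  rw [← mn_eq] at h2
  have e1 : star ((m * star m) • r) * y1 + m • y2 = m • (star m • (star r * y1) + y2) := by
    rw [star_smul, star_mul, star_star, smul_mul_assoc, smul_add, smul_smul]
  rw [e1] at h2
  have e2 : mn m r y1 y2 a * ((m * star m) • r) = (m * star m) • (mn m r y1 y2 a * r) :=
    mul_smul_comm _ _ _
  obtain ⟨⟨a1, a2, a3⟩, h3⟩ := h2
  rw [e2, uu_scale hm] at a3
  refine ⟨⟨a1.unscale hm, a2, a3⟩, ?_⟩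
  rw [FF, FF, e2, uu_scale hm, mul_smul_comm, uu_scale hm] at h3
  exact h3

end central

section exchange2

variable {W : Set D} {c : D → E} {r s v1 v2 w1 w2 p t q : D}

/-- The two exchange identities at once: `v = (v₁, v₂)` at `r` with scalar `p`, `w = (w₁, w₂)`
at `s` with scalar `t`, mixed scalar `q`. -/
theorem exchange_pair (hv : At r v1 v2 p) (hw : At s w1 w2 t)
    (hq : q * s - star r * q = v2 * star w2 - star r * (v1 * star w1)) (r0 : r ≠ 0) (s0 : s ≠ 0)
    (p0 : p ≠ 0) (t0 : t ≠ 0) {g : D} (hg : g = w1 * star v1 - star q)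
    (hS : t - g * p⁻¹ * q ≠ 0) :
    At s (w1 - g * p⁻¹ * v1) (w2 - g * p⁻¹ * v2) (t - g * p⁻¹ * q) ∧
      At r (v1 - q * t⁻¹ * w1) (v2 - q * t⁻¹ * w2) (p - q * t⁻¹ * g) ∧
      p - q * t⁻¹ * g ≠ 0 ∧
      uu v1 p * uu (w1 - g * p⁻¹ * v1) (t - g * p⁻¹ * q) =
        uu w1 t * uu (v1 - q * t⁻¹ * w1) (p - q * t⁻¹ * g) ∧
      uu v2 (p * r) * uu (w2 - g * p⁻¹ * v2) ((t - g * p⁻¹ * q) * s) =
        uu w2 (t * s) * uu (v2 - q * t⁻¹ * w2) ((p - q * t⁻¹ * g) * r) := by
  have hr' : star r ≠ 0 := by simpa using r0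
  have hq1 : q + star g = v1 * star w1 := by
    rw [hg, star_sub, star_star, star_mul, star_star]; abel
  have hq1' : g + star q = w1 * star v1 := by rw [hg]; abel
  have hq2 : q * s + star (g * r) = v2 * star w2 := by
    rw [star_mul, hg, star_sub, star_star, star_mul, star_star]
    have : q * s = star r * q + (v2 * star w2 - star r * (v1 * star w1)) := by rw [← hq]; abel
    rw [this]; noncomm_ring
  have hq2' : g * r + star (q * s) = w2 * star v2 := by
    have := congrArg star hq2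
    simp only [star_add, star_mul, star_star] at this
    rw [star_mul, add_comm]; simpa only [add_comm] using this
  have e1 : (g * r) * (p * r)⁻¹ = g * p⁻¹ := by
    rw [mul_inv_rev, mul_assoc g, ← mul_assoc r, mul_inv_cancel₀ r0, one_mul]
  have e2 : (q * s) * (t * s)⁻¹ = q * t⁻¹ := by
    rw [mul_inv_rev, mul_assoc q, ← mul_assoc s, mul_inv_cancel₀ s0, one_mul]
  have e3 : t * s - g * r * (p * r)⁻¹ * (q * s) = (t - g * p⁻¹ * q) * s := by
    rw [e1]; noncomm_ring
  have e4 : p * r - q * s * (t * s)⁻¹ * (g * r) = (p - q * t⁻¹ * g) * r := by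
    rw [e2]; noncomm_ring
  obtain ⟨hS', -⟩ := schur_inv p0 t0 hS
  have x1 := uu_exchange hv.one hw.one hq1 p0 t0 hS
  have x2 := uu_exchange (v := v2) (w := w2) (p := p * r) (t := t * s) (q := q * s) (s := g * r)
    hv.two' hw.two' hq2 (mul_ne_zero p0 r0) (mul_ne_zero t0 s0)
    (by rw [e3]; exact mul_ne_zero hS s0)
  rw [e3, e4, e1, e2] at x2
  refine ⟨⟨schur hv.one hw.one hq1 p0, ?_⟩, ⟨schur hw.one hv.one hq1' t0, ?_⟩, hS', x1, x2⟩
  · have := schur hv.two' hw.two' hq2 (mul_ne_zero p0 r0)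
    rw [e3, e1, star_mul] at this
    exact this
  · have := schur hw.two' hv.two' hq2' (mul_ne_zero t0 s0)
    rw [e4, e2, star_mul] at this
    exact this

/-- **Exchange for the functional.** Five memberships give the sixth and the equality. -/
theorem exchange_FF (hc : Chr W c) (hv : Dm W r v1 v2 p) (hw : Dm W s w1 w2 t)
    (hq : q * s - star r * q = v2 * star w2 - star r * (v1 * star w1)) (r0 : r ≠ 0) (s0 : s ≠ 0)
    (p0 : p ≠ 0) (t0 : t ≠ 0) {g : D} (hg : g = w1 * star v1 - star q)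
    (hS : t - g * p⁻¹ * q ≠ 0)
    (h1 : uu (w1 - g * p⁻¹ * v1) (t - g * p⁻¹ * q) ∈ W)
    (h2 : uu (w2 - g * p⁻¹ * v2) ((t - g * p⁻¹ * q) * s) ∈ W) :
    Dm W s (w1 - g * p⁻¹ * v1) (w2 - g * p⁻¹ * v2) (t - g * p⁻¹ * q) ∧
      Dm W r (v1 - q * t⁻¹ * w1) (v2 - q * t⁻¹ * w2) (p - q * t⁻¹ * g) ∧
      FF c r v1 v2 p * FF c s (w1 - g * p⁻¹ * v1) (w2 - g * p⁻¹ * v2) (t - g * p⁻¹ * q) =
        FF c s w1 w2 t * FF c r (v1 - q * t⁻¹ * w1) (v2 - q * t⁻¹ * w2) (p - q * t⁻¹ * g) := by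
  obtain ⟨b1, b2, -, x1, x2⟩ := exchange_pair hv.at_ hw.at_ hq r0 s0 p0 t0 hg hS
  have m1 : uu (v1 - q * t⁻¹ * w1) (p - q * t⁻¹ * g) ∈ W :=
    hc.mem_of_mul_left hw.m1 (x1 ▸ hc.mul _ hv.m1 _ h1)
  have m2 : uu (v2 - q * t⁻¹ * w2) ((p - q * t⁻¹ * g) * r) ∈ W :=
    hc.mem_of_mul_left hw.m2 (x2 ▸ hc.mul _ hv.m2 _ h2)
  refine ⟨⟨b1, h1, h2⟩, ⟨b2, m1, m2⟩, ?_⟩
  have y1 := congrArg c x1
  have y2 := congrArg c x2
  rw [hc.map _ hv.m1 _ h1, hc.map _ hw.m1 _ m1] at y1
  rw [hc.map _ hv.m2 _ h2, hc.map _ hw.m2 _ m2] at y2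
  simp only [FF]
  rw [div_mul_div_comm, div_mul_div_comm, y1, y2]

omit [StarRing D] in
/-- The Schur complements vanish together. -/
theorem schur_ne {g : D} (p0 : p ≠ 0) (t0 : t ≠ 0) (hP : p - q * t⁻¹ * g ≠ 0) :
    t - g * p⁻¹ * q ≠ 0 := (schur_inv t0 p0 hP).1

/-- The complement is nonzero as soon as the new pair is not zero. -/
theorem schur_ne' (hv : At r v1 v2 p) (hw : At s w1 w2 t)
    (hq : q * s - star r * q = v2 * star w2 - star r * (v1 * star w1)) (s0 : s ≠ 0)
    (p0 : p ≠ 0) (t0 : t ≠ 0) {g : D} (hg : g = w1 * star v1 - star q)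
    (h : v1 - q * t⁻¹ * w1 ≠ 0 ∨ v2 - q * t⁻¹ * w2 ≠ 0) :
    t - g * p⁻¹ * q ≠ 0 := by
  have hq1 : q + star g = v1 * star w1 := by
    rw [hg, star_sub, star_star, star_mul, star_star]; abel
  have hq1' : g + star q = w1 * star v1 := by rw [hg]; abel
  have hq2 : q * s + star (g * r) = v2 * star w2 := by
    rw [star_mul, hg, star_sub, star_star, star_mul, star_star]
    have : q * s = star r * q + (v2 * star w2 - star r * (v1 * star w1)) := by rw [← hq]; abel
    rw [this]; noncomm_ring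
  have hq2' : g * r + star (q * s) = w2 * star v2 := by
    have := congrArg star hq2
    simp only [star_add, star_mul, star_star] at this
    rw [star_mul, add_comm]; simpa only [add_comm] using this
  have e2 : (q * s) * (t * s)⁻¹ = q * t⁻¹ := by
    rw [mul_inv_rev, mul_assoc q, ← mul_assoc s, mul_inv_cancel₀ s0, one_mul]
  have e4 : p * r - q * s * (t * s)⁻¹ * (g * r) = (p - q * t⁻¹ * g) * r := by
    rw [e2]; noncomm_ring
  refine schur_ne p0 t0 (At.ne_zero (r := r) (y1 := v1 - q * t⁻¹ * w1)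
    (y2 := v2 - q * t⁻¹ * w2) ⟨schur hw.one hv.one hq1' t0, ?_⟩ h)
  have := schur hw.two' hv.two' hq2' (mul_ne_zero t0 s0)
  rw [e4, e2, star_mul] at this
  exact this

end exchange2

section kappa

variable {K : Type*} [Field K] [StarRing K] [Algebra K D] [StarModule K D] {W : Set D} {c : D → E}
  {r v1 v2 p : D} {κ : K}

/-- The scalar at a central element. -/
def ak (κ : K) (y1 y2 : D) : D :=
  (κ - star κ)⁻¹ • (y2 * star y2 - star κ • (y1 * star y1))

theorem at_ak (hκ : star κ ≠ κ) (y1 y2 : D) : At (algebraMap K D κ) y1 y2 (ak κ y1 y2) := by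
  have h0 : κ - star κ ≠ 0 := sub_ne_zero.mpr (Ne.symm hκ)
  have h0' : star κ - κ ≠ 0 := sub_ne_zero.mpr hκ
  have e : star (ak κ y1 y2) = -((κ - star κ)⁻¹ • (y2 * star y2 - κ • (y1 * star y1))) := by
    rw [ak, star_smul, star_inv₀, star_sub, star_star, star_sub, star_smul, star_star, star_mul,
      star_mul, star_star, star_star, ← neg_smul, ← inv_neg, neg_sub]
  have e2 : algebraMap K D (star κ) = star (algebraMap K D κ) := by
    rw [Algebra.algebraMap_eq_smul_one, Algebra.algebraMap_eq_smul_one, star_smul, star_one]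
  refine ⟨?_, ?_⟩
  · rw [e, ak, ← sub_eq_add_neg, ← smul_sub, sub_sub_sub_cancel_left, ← sub_smul, smul_smul,
      inv_mul_cancel₀ h0, one_smul]
  · rw [← e2, ← Algebra.commutes, ← Algebra.smul_def, ← Algebra.smul_def, e, ak, smul_neg,
      ← sub_eq_add_neg, smul_comm κ, smul_comm (star κ), ← smul_sub]
    have : κ • (y2 * star y2 - star κ • (y1 * star y1)) -
        star κ • (y2 * star y2 - κ • (y1 * star y1)) = (κ - star κ) • (y2 * star y2) := by
      module
    rw [this, smul_smul, inv_mul_cancel₀ h0, one_smul]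

theorem at_kappa_unique (hκ : star κ ≠ κ) {y1 y2 a : D} (h : At (algebraMap K D κ) y1 y2 a) :
    a = ak κ y1 y2 := by
  refine h.unique (fun x hx => ?_) (at_ak hκ y1 y2)
  have e2 : star (algebraMap K D κ) = algebraMap K D (star κ) := by
    rw [Algebra.algebraMap_eq_smul_one, Algebra.algebraMap_eq_smul_one, star_smul, star_one]
  rw [e2, ← Algebra.commutes, ← Algebra.smul_def, ← Algebra.smul_def, ← sub_eq_zero,
    ← sub_smul] at hx
  exact (smul_eq_zero.mp hx).resolve_left (sub_ne_zero.mpr (Ne.symm hκ))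

/-- The conjugate central element. -/
theorem star_ak (y1 y2 : D) : star (ak κ y1 y2) = ak (star κ) y1 y2 := by
  rw [ak, ak, star_smul, star_inv₀, star_sub, star_star, star_sub, star_smul, star_star,
      star_mul, star_mul, star_star, star_star]

theorem algebraMap_star' (κ : K) : algebraMap K D (star κ) = star (algebraMap K D κ) := by
  rw [Algebra.algebraMap_eq_smul_one, Algebra.algebraMap_eq_smul_one, star_smul, star_one]

theorem FF_star (hc : Chr W c) {y1 y2 : D}
    (h : Dm W (algebraMap K D κ) y1 y2 (ak κ y1 y2)) (hκ : star κ ≠ κ) :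
    Dm W (algebraMap K D (star κ)) y1 y2 (ak (star κ) y1 y2) ∧
      FF c (algebraMap K D (star κ)) y1 y2 (ak (star κ) y1 y2) =
        (FF c (algebraMap K D κ) y1 y2 (ak κ y1 y2))⁻¹ := by
  have e1 : uu y1 (ak (star κ) y1 y2) = star (uu y1 (ak κ y1 y2)) := by
    rw [← star_ak, star_uu]
  have e2 : uu y2 (ak (star κ) y1 y2 * algebraMap K D (star κ)) =
      star (uu y2 (ak κ y1 y2 * algebraMap K D κ)) := by
    rw [← star_ak, star_uu, star_mul, algebraMap_star', ← algebraMap_star', Algebra.commutes]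
  refine ⟨⟨at_ak (by rw [star_star]; exact Ne.symm hκ) _ _, ?_, ?_⟩, ?_⟩
  · rw [e1]; exact hc.st _ h.m1
  · rw [e2]; exact hc.st _ h.m2
  · rw [FF, FF, e1, e2, hc.map_star h.m1, hc.map_star h.m2, inv_div, inv_div_inv]

end kappa

end Vale.Agent.P011.H436.OddN
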